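import Mathlib

/-!
P248: tensor powers for the symmetric Mahler conjecture.
-/

open MeasureTheory Set Module

namespace Vale.Agent.P248

variable {ι : Type} [Fintype ι]

/-- The polar body `{y | ⟨y, x⟩ ≤ 1 for all x ∈ K}`. -/
def polarBody (K : Set (ι → ℝ)) : Set (ι → ℝ) := {y | ∀ x ∈ K, ∑ i, y i * x i ≤ 1}

/-- An origin-symmetric convex body. -/
structure IsSymBody (K : Set (ι → ℝ)) : Prop where
  convex : Convex ℝ K
  compact : IsCompact K
  interior_nonempty : (interior K).Nonempty
  symm : ∀ x ∈ K, -x ∈ K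

/-- `|K| * |K°|`. -/
noncomputable def volProd (K : Set (ι → ℝ)) : ℝ :=
  (volume K).toReal * (volume (polarBody K)).toReal

variable {K : Set (ι → ℝ)}

theorem IsSymBody.mem_nhds (h : IsSymBody K) : K ∈ nhds (0 : ι → ℝ) := by
  obtain ⟨x, hx⟩ := h.interior_nonempty
  have hneg : -x ∈ interior K := by
    have hKe : -K = K := by
      ext y
      exact ⟨fun hy => by simpa using h.symm _ (Set.mem_neg.1 hy),
        fun hy => Set.mem_neg.2 (h.symm _ hy)⟩
    have h1 : -x ∈ -interior K := by simpa using hx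
    have h2 : -interior K ⊆ interior K := by
      have : -interior K ⊆ interior (-K) :=
        interior_maximal (Set.neg_subset_neg.2 interior_subset) isOpen_interior.neg
      rwa [hKe] at this
    exact h2 h1
  refine mem_interior_iff_mem_nhds.1 ?_
  have h2 : (1 / 2 : ℝ) • x + (1 / 2 : ℝ) • -x ∈ interior K :=
    h.convex.interior hx hneg (by norm_num) (by norm_num) (by norm_num)
  simpa [← smul_add] using h2

theorem IsSymBody.gauge_le_one (h : IsSymBody K) : {x | gauge K x ≤ 1} = K := by
  ext x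
  rw [Set.mem_setOf_eq, gauge_le_one_iff_mem_closure h.convex h.mem_nhds,
    h.compact.isClosed.closure_eq]

theorem IsSymBody.gauge_norm (h : IsSymBody K) :
    gauge K 0 = 0 ∧ (∀ x, gauge K (-x) = gauge K x) ∧
    (∀ x y, gauge K (x + y) ≤ gauge K x + gauge K y) ∧ (∀ {x}, gauge K x = 0 → x = 0) ∧
    ∀ (r : ℝ) x, gauge K (r • x) = |r| * gauge K x := by
  have ha := absorbent_nhds_zero (𝕜 := ℝ) h.mem_nhds
  refine ⟨gauge_zero, gauge_neg h.symm, gauge_add_le h.convex ha,
    fun hx => (gauge_eq_zero ha (NormedSpace.isVonNBounded_of_isBounded ℝ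
      h.compact.isBounded)).1 hx, fun r x => ?_⟩
  rcases le_total 0 r with hr | hr
  · rw [gauge_smul_of_nonneg hr, smul_eq_mul, abs_of_nonneg hr]
  · rw [show r • x = -((-r) • x) by simp, gauge_neg h.symm,
      gauge_smul_of_nonneg (neg_nonneg.2 hr), smul_eq_mul, abs_of_nonpos hr]

theorem sum_gauge_norm {m : ℕ} (h : IsSymBody K) :
    let G : (Fin m → ι → ℝ) → ℝ := fun x => ∑ j, gauge K (x j)
    G 0 = 0 ∧ (∀ x, G (-x) = G x) ∧ (∀ x y, G (x + y) ≤ G x + G y) ∧
      (∀ {x}, G x = 0 → x = 0) ∧ ∀ (r : ℝ) x, G (r • x) ≤ |r| * G x := by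
  obtain ⟨h1, h2, h3, h4, h5⟩ := h.gauge_norm
  refine ⟨by simp [h1], fun x => by simp [h2],
    fun x y => by
      simp only [Pi.add_apply, ← Finset.sum_add_distrib]
      exact Finset.sum_le_sum fun j _ => h3 _ _,
    fun {x} hx => ?_, fun r x => le_of_eq (by simp [h5, Finset.mul_sum])⟩
  funext j
  exact h4 ((Finset.sum_eq_zero_iff_of_nonneg fun j _ => gauge_nonneg _).1 hx j
    (Finset.mem_univ j))

/-- Volume of a norm ball as an integral. -/
theorem volume_le_one {E : Type} [AddCommGroup E] [Module ℝ E] [FiniteDimensional ℝ E]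
    [MeasurableSpace E] [TopologicalSpace E] [IsTopologicalAddGroup E] [BorelSpace E] [T2Space E]
    [ContinuousSMul ℝ E] [Nontrivial E] (μ : Measure E) [μ.IsAddHaarMeasure] {g : E → ℝ}
    (h1 : g 0 = 0) (h2 : ∀ x, g (-x) = g x) (h3 : ∀ x y, g (x + y) ≤ g x + g y)
    (h4 : ∀ {x}, g x = 0 → x = 0) (h5 : ∀ (r : ℝ) x, g (r • x) ≤ |r| * g x) :
    (μ {x | g x ≤ 1}).toReal = (∫ x, Real.exp (-g x) ∂μ) / (finrank ℝ E).factorial := by
  rw [measure_le_eq_lt μ h1 h2 h3 h4 h5 1,
    measure_lt_one_eq_integral_div_gamma μ h1 h2 h3 h4 h5 one_pos, div_one,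
    Real.Gamma_nat_eq_factorial, ENNReal.toReal_ofReal]
  · simp [Real.rpow_one]
  · exact div_nonneg (integral_nonneg fun x => (Real.exp_pos _).le) (Nat.cast_nonneg _)

/-- The `ℓ_1` sum of `m` copies of `K`. -/
def ellOne (m : ℕ) (K : Set (ι → ℝ)) : Set (Fin m → ι → ℝ) := {x | ∑ j, gauge K (x j) ≤ 1}

theorem volume_ellOne (h : IsSymBody K) [Nonempty ι] {m : ℕ} (hm : 0 < m) :
    (volume (ellOne m K)).toReal =
      ((volume K).toReal * (Fintype.card ι).factorial) ^ m / (m * Fintype.card ι).factorial := by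
  obtain ⟨h1, h2, h3, h4, h5⟩ := h.gauge_norm
  obtain ⟨g1, g2, g3, g4, g5⟩ := sum_gauge_norm (m := m) h
  have : Nonempty (Fin m) := ⟨⟨0, hm⟩⟩
  have hK := volume_le_one (volume : Measure (ι → ℝ)) h1 h2 h3 h4 fun r x => le_of_eq (h5 r x)
  rw [h.gauge_le_one, finrank_fintype_fun_eq_card] at hK
  have hS := volume_le_one (volume : Measure (Fin m → ι → ℝ)) g1 g2 g3 g4 g5
  rw [ellOne, hS, hK, div_mul_cancel₀ _ (Nat.cast_ne_zero.2 (Nat.factorial_ne_zero _))]
  simp only [← Finset.sum_neg_distrib, Real.exp_sum]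
  rw [integral_fintype_prod_volume_eq_pow fun x : ι → ℝ => Real.exp (-gauge K x),
    Fintype.card_fin, Module.finrank_pi_fintype]
  simp

/-- Identification of `m` blocks of `ι` coordinates with one block of `κ`. -/
def flatten {m : ℕ} {κ : Type} (e : Fin m × ι ≃ κ) (x : Fin m → ι → ℝ) : κ → ℝ :=
  fun k => x (e.symm k).1 (e.symm k).2

theorem flatten_apply {m : ℕ} {κ : Type} (e : Fin m × ι ≃ κ) (x : Fin m → ι → ℝ) (j : Fin m)
    (i : ι) : flatten e x (e (j, i)) = x j i := by simp [flatten]

/-- The flattened `ℓ_1` sum. -/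
def flatEllOne {m : ℕ} {κ : Type} (e : Fin m × ι ≃ κ) (K : Set (ι → ℝ)) : Set (κ → ℝ) :=
  (fun y j i => y (e (j, i))) ⁻¹' ellOne m K

theorem volume_unflatten {m : ℕ} {κ : Type} [Fintype κ] (e : Fin m × ι ≃ κ) :
    MeasurePreserving (fun (y : κ → ℝ) j i => y (e (j, i))) volume volume := by
  have hm : Measurable (flatten e) := by
    refine measurable_pi_lambda _ fun k => ?_
    exact (measurable_pi_apply _).comp (measurable_pi_apply _)
  have h : Measure.map (flatten e) (volume : Measure (Fin m → ι → ℝ)) = volume := by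
    refine (Measure.pi_eq fun s hs => ?_).symm
    rw [Measure.map_apply hm (MeasurableSet.univ_pi hs),
      show flatten e ⁻¹' (Set.univ.pi s) = Set.univ.pi fun j => Set.univ.pi fun i => s (e (j, i)) by
        ext x
        simp only [Set.mem_preimage, Set.mem_univ_pi]
        constructor
        · intro hx j i
          simpa [flatten] using hx (e (j, i))
        · intro hx k
          simpa [flatten] using hx (e.symm k).1 (e.symm k).2,
      volume_pi_pi]
    simp only [volume_pi_pi]
    rw [← Fintype.prod_prod_type']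
    exact Fintype.prod_equiv e _ _ fun p => rfl
  let φ : (Fin m → ι → ℝ) ≃ᵐ (κ → ℝ) :=
    { toFun := flatten e
      invFun := fun y j i => y (e (j, i))
      left_inv := fun x => by funext j i; simp [flatten]
      right_inv := fun y => by funext k; simp [flatten]
      measurable_toFun := hm
      measurable_invFun := measurable_pi_lambda _ fun j => measurable_pi_lambda _ fun i =>
        measurable_pi_apply _ }
  exact MeasurePreserving.symm φ ⟨hm, h⟩

theorem polar_flatEllOne (h : IsSymBody K) {m : ℕ} {κ : Type} [Fintype κ] (e : Fin m × ι ≃ κ) :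
    polarBody (flatEllOne e K) =
      (fun (y : κ → ℝ) j i => y (e (j, i))) ⁻¹' Set.univ.pi fun _ : Fin m => polarBody K := by
  obtain ⟨h1, h2, h3, h4, h5⟩ := h.gauge_norm
  have hsum : ∀ y x : κ → ℝ,
      ∑ k, y k * x k = ∑ j, ∑ i, y (e (j, i)) * x (e (j, i)) := by
    intro y x
    rw [← Fintype.sum_prod_type']
    exact (Fintype.sum_equiv e _ _ fun p => rfl).symm
  ext y
  simp only [Set.mem_preimage, Set.mem_univ_pi]
  constructor
  · intro hy j x hx
    classical
    have hmem : flatten e (Pi.single j x) ∈ flatEllOne e K := by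
      show ∑ l, gauge K (fun i => flatten e (Pi.single j x) (e (l, i))) ≤ 1
      simp only [flatten_apply]
      rw [Finset.sum_eq_single j (fun l _ hl => by simp [Pi.single_eq_of_ne hl, ← Pi.zero_def, h1])
        (by simp)]
      simpa using gauge_le_one_of_mem hx
    have := hy _ hmem
    rw [hsum] at this
    simp only [flatten_apply] at this
    rw [Finset.sum_eq_single j (fun l _ hl => by simp [Pi.single_eq_of_ne hl]) (by simp)] at this
    simpa using this
  · intro hy x hx
    rw [hsum]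
    refine le_trans (Finset.sum_le_sum fun j _ => ?_) hx
    set v : ι → ℝ := fun i => x (e (j, i)) with hv
    rcases eq_or_lt_of_le (gauge_nonneg (s := K) v) with h0 | h0
    · have hv0 : v = 0 := h4 h0.symm
      have : ∀ i, x (e (j, i)) = 0 := fun i => congrFun hv0 i
      simp [this, gauge_nonneg]
    · have hmem : (gauge K v)⁻¹ • v ∈ K := by
        refine (Set.ext_iff.1 h.gauge_le_one _).1 ?_
        rw [Set.mem_setOf_eq, h5, abs_inv, abs_of_pos h0, inv_mul_cancel₀ h0.ne']
      have := hy j _ hmem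
      simp only [Pi.smul_apply, smul_eq_mul] at this
      rw [show (∑ i, y (e (j, i)) * ((gauge K v)⁻¹ * v i)) =
        (gauge K v)⁻¹ * ∑ i, y (e (j, i)) * x (e (j, i)) by
          rw [Finset.mul_sum]; exact Finset.sum_congr rfl fun i _ => by rw [hv]; ring] at this
      rw [inv_mul_le_iff₀ h0, mul_one] at this
      exact this

theorem isSymBody_flatEllOne (h : IsSymBody K) {m : ℕ} {κ : Type} [Fintype κ]
    (e : Fin m × ι ≃ κ) : IsSymBody (flatEllOne e K) := by
  obtain ⟨h1, h2, h3, h4, h5⟩ := h.gauge_norm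
  obtain ⟨g1, g2, g3, g4, g5⟩ := sum_gauge_norm (m := m) h
  let L : (κ → ℝ) →ₗ[ℝ] (Fin m → ι → ℝ) :=
    { toFun := fun y j i => y (e (j, i))
      map_add' := fun _ _ => rfl
      map_smul' := fun _ _ => rfl }
  let G : (κ → ℝ) → ℝ := fun y => ∑ j, gauge K (L y j)
  have hc : Continuous G := continuous_finset_sum _ fun j _ =>
    (continuous_gauge h.convex h.mem_nhds).comp
      (continuous_pi fun i => continuous_apply (e (j, i)))
  have hset : flatEllOne e K = {y | G y ≤ 1} := rfl
  refine ⟨?_, ?_, ⟨0, ?_⟩, fun y hy => ?_⟩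
  · rw [hset]
    intro a ha b hb s t hs ht hst
    show G _ ≤ 1
    calc G (s • a + t • b) = ∑ j, gauge K ((L (s • a) + L (t • b)) j) := by simp [G, map_add]
      _ ≤ _ := g3 _ _
      _ ≤ |s| * G a + |t| * G b := by
          rw [map_smul, map_smul]; exact add_le_add (g5 _ _) (g5 _ _)
      _ ≤ s * 1 + t * 1 := by
          rw [abs_of_nonneg hs, abs_of_nonneg ht]
          exact add_le_add (mul_le_mul_of_nonneg_left ha hs) (mul_le_mul_of_nonneg_left hb ht)
      _ = 1 := by linarith
  · rw [Metric.isCompact_iff_isClosed_bounded]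
    refine ⟨hset ▸ isClosed_le hc continuous_const, ?_⟩
    obtain ⟨C, hC⟩ := h.compact.isBounded.exists_norm_le
    refine isBounded_iff_forall_norm_le.2 ⟨max C 0, fun y hy => ?_⟩
    refine (pi_norm_le_iff_of_nonneg (le_max_right _ _)).2 fun k => ?_
    obtain ⟨⟨j, i⟩, rfl⟩ := e.surjective k
    have hj : L y j ∈ K := by
      rw [← h.gauge_le_one]
      exact le_trans (Finset.single_le_sum (f := fun l => gauge K (L y l))
        (fun l _ => gauge_nonneg _) (Finset.mem_univ j)) hy
    exact le_trans (le_trans (norm_le_pi_norm (L y j) i) (hC _ hj)) (le_max_left _ _)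
  · refine interior_maximal (s := flatEllOne e K) (t := {y | G y < 1})
      (fun y hy => (le_of_lt hy : G y ≤ 1)) (isOpen_lt hc continuous_const) ?_
    show G 0 < 1
    simp [G, h1]
  · show G (-y) ≤ 1
    simp only [G, map_neg, Pi.neg_apply, h2]
    exact hy

theorem volProd_flatEllOne (h : IsSymBody K) [Nonempty ι] {m : ℕ} (hm : 0 < m) {κ : Type}
    [Fintype κ] (e : Fin m × ι ≃ κ) :
    volProd (flatEllOne e K) =
      (volProd K * (Fintype.card ι).factorial) ^ m / (m * Fintype.card ι).factorial := by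
  have hM := volume_unflatten e
  have hA : MeasurableSet (ellOne m K) :=
    (isClosed_le (continuous_finset_sum _ fun j _ =>
      (continuous_gauge h.convex h.mem_nhds).comp (continuous_apply j)) continuous_const).measurableSet
  have hB : MeasurableSet (polarBody K) := by
    refine IsClosed.measurableSet ?_
    rw [show polarBody K = ⋂ x ∈ K, {y | ∑ i, y i * x i ≤ 1} by ext; simp [polarBody]]
    exact isClosed_biInter fun x _ => isClosed_le
      (continuous_finset_sum _ fun i _ => (continuous_apply i).mul continuous_const) continuous_const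
  rw [volProd, polar_flatEllOne h, flatEllOne, hM.measure_preimage hA.nullMeasurableSet,
    hM.measure_preimage (MeasurableSet.univ_pi fun _ => hB).nullMeasurableSet, volume_pi_pi,
    ENNReal.toReal_prod, Finset.prod_const, Finset.card_fin, volume_ellOne h hm, volProd]
  ring

end Vale.Agent.P248

namespace Vale.Agent.P248

open Filter Topology

/-- The inequality of the symmetric Mahler conjecture in every dimension follows from any lower
bound with subexponential loss. -/
theorem mahler_of_asymptotic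
    (hasy : ∀ ε : ℝ, 0 < ε → ε < 1 → ∃ N, ∀ n, N ≤ n → ∀ K : Set (Fin n → ℝ), IsSymBody K →
      (1 - ε) ^ n * (4 ^ n / n.factorial) ≤ volProd K)
    (n : ℕ) (hn : 1 ≤ n) (K : Set (Fin n → ℝ)) (hK : IsSymBody K) :
    4 ^ n / (n.factorial : ℝ) ≤ volProd K := by
  have : Nonempty (Fin n) := ⟨⟨0, hn⟩⟩
  have hP : 0 ≤ volProd K := mul_nonneg ENNReal.toReal_nonneg ENNReal.toReal_nonneg
  have hkey : ∀ ε : ℝ, 0 < ε → ε < 1 →
      (1 - ε) ^ n * 4 ^ n ≤ volProd K * n.factorial := by
    intro ε hε hε1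
    obtain ⟨N, hN⟩ := hasy ε hε hε1
    have hle : N ≤ (N + 1) * n := le_trans (Nat.le_succ N) (Nat.le_mul_of_pos_right _ hn)
    have h := hN _ hle (flatEllOne finProdFinEquiv K) (isSymBody_flatEllOne hK finProdFinEquiv)
    rw [volProd_flatEllOne hK (Nat.succ_pos N), Fintype.card_fin, ← mul_div_assoc,
      div_le_div_iff_of_pos_right (Nat.cast_pos.2 (Nat.factorial_pos _)), ← mul_pow,
      mul_comm (N + 1) n, pow_mul] at h
    have := le_of_pow_le_pow_left₀ (Nat.succ_ne_zero N) (mul_nonneg hP (Nat.cast_nonneg _)) h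
    rwa [mul_pow] at this
  have hc : Tendsto (fun ε : ℝ => (1 - ε) ^ n * 4 ^ n) (𝓝[>] 0) (𝓝 (4 ^ n)) := by
    have : Continuous fun ε : ℝ => (1 - ε) ^ n * 4 ^ n := by fun_prop
    simpa using (this.tendsto 0).mono_left nhdsWithin_le_nhds
  rw [div_le_iff₀ (Nat.cast_pos.2 (Nat.factorial_pos _))]
  refine le_of_tendsto hc ?_
  filter_upwards [Ioo_mem_nhdsGT (zero_lt_one (α := ℝ))] with ε hε
  exact hkey ε hε.1 hε.2

end Vale.Agent.P248
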